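import Vale.Agent.P325.FromPCP
import Vale.Agent.P325.PCPMain
import Vale.Agent.P325.Marg
import Vale.Agent.P325.Pow
import Vale.Agent.P325.Comp

namespace Vale.Agent.Results.P325.UGC

open Vale.Agent.P325

/-- The Unique Games Conjecture: a polynomial-time reduction from 3-SAT to the gap problem. -/
theorem result : ∀ ε δ : ℝ, 0 < ε → 0 < δ → ε + δ < 1 →
    ∃ k : ℕ, 2 ≤ k ∧ ∃ f : List Bool → UG k,
      (∃ M : Turing.TM2ComputableInPolyTime id (fun G => bitsOf (natsUG G)) f,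
        ∀ j, Finite (M.tm.Γ j)) ∧
      ∀ x : List Bool, f x ≠ [] ∧
        ((∃ φ : CNF3, bitsOf (natsCNF φ) = x ∧ Sat φ) → 1 - ε ≤ ugVal (f x)) ∧
        (¬ (∃ φ : CNF3, bitsOf (natsCNF φ) = x ∧ Sat φ) → ugVal (f x) ≤ δ) :=
  fun ε δ hε hδ _ => final_of (ug_of_pcp (pcp_of margThm powThm compThm)) ε δ hε hδ

end Vale.Agent.Results.P325.UGC
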